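import Vale.Agent.Lib.P226.Main
import Vale.Agent.Lib.P226K4.Main

namespace Vale.Agent.Results.P226.A_five

open Vale.Agent.Lib.P226

/-- The Gaussian propeller inequality for at most five cells, with no hypothesis: for `k ≤ 5`, every
measurable partition of every `ℝ^d` into `k` cells satisfies `∑ |∫_{A_i} x dγ_d|² ≤ 9 / (8π)`. -/
theorem result (k : ℕ) (hk : k ≤ 5) : PartitionBound k := by
  have h5 : PBc 5 (9 / (8 * Real.pi)) := main_five partitionBound_four
  have down : ∀ m k, PBc (k + m) (9 / (8 * Real.pi)) → PBc k (9 / (8 * Real.pi)) := by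
    intro m
    induction m with
    | zero => intro k h; exact h
    | succ m ih => intro k h; exact ih k (PBc_pred (by simpa [add_assoc] using h))
  exact down (5 - k) k (by rw [Nat.add_sub_cancel' hk]; exact h5)

end Vale.Agent.Results.P226.A_five
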