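import Vale.Agent.Lib.P226.Main

namespace Vale.Agent.Results.P226.A_k5

/-- The Gaussian propeller inequality for partitions into four cells, in every dimension, implies
the same inequality for partitions into five cells, in every dimension: if every measurable
partition `A_1, ..., A_4` of every `ℝ^d` satisfies `∑ |∫_{A_i} x dγ_d|² ≤ 9/(8π)`, then so does every
measurable partition `A_1, ..., A_5` of every `ℝ^d`. -/
theorem result : Vale.Agent.Lib.P226.PartitionBound 4 → Vale.Agent.Lib.P226.PartitionBound 5 :=
  Vale.Agent.Lib.P226.main_five

end Vale.Agent.Results.P226.A_k5
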