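import Vale.Agent.Lib.P226R.Main

namespace Vale.Agent.Results.P226.B_allk

open Vale.Agent.Lib.P226

/-- Reduction of the Gaussian propeller problem to finitely many cells: for every real constant `c`,
if every measurable partition of every `ℝ^d` into `40` cells satisfies `∑ |∫_{A_i} x dγ_d|² ≤ c`, then
for every `k` every measurable partition of every `ℝ^d` into `k` cells satisfies the same bound. -/
theorem result (c : ℝ)
    (h : ∀ (d : ℕ) (A : Fin 40 → Set (E d)), IsPart A → FF A ≤ c)
    (k d : ℕ) (A : Fin k → Set (E d)) (hA : IsPart A) : FF A ≤ c :=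
  all_k_of_PBc (c := c) h k d A hA

end Vale.Agent.Results.P226.B_allk
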