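import Vale.Agent.Lib.P226K.Classes

namespace Vale.Agent.Results.P226.C_full

open Vale.Agent.Lib.P226

/-- The Gaussian propeller conjecture of Khot and Naor: for all `k` and `d`, every measurable
partition `(A_1, ..., A_k)` of `ℝ^d` satisfies `∑ |∫_{A_i} x dγ_d(x)|² ≤ 9 / (8π)`. -/
theorem result (k d : ℕ) (A : Fin k → Set (E d)) (hA : IsPart A) : FF A ≤ 9 / (8 * Real.pi) :=
  Vale.Agent.Lib.P226K.partitionBound_all k d A hA

end Vale.Agent.Results.P226.C_full
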